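import Vale.Agent.P145W85.F.HarmT

/-!
P153, block KAPV: harmonic functions on open sets of the plane and holomorphic maps.
-/

set_option autoImplicit false

namespace Vale.Agent.P145W85.P153.R2.KAPV

open Filter Topology Set MeasureTheory InnerProductSpace
open Vale.Agent.P145W85.P145.PT Vale.Agent.P145W85.P153.R2.FLDI
open scoped Laplacian

/-- The point of the complex plane. -/
def toC (z : ℝ × ℝ) : ℂ := ⟨z.1, z.2⟩

/-- The point of `ℝ × ℝ`. -/
def toR (w : ℂ) : ℝ × ℝ := (w.re, w.im)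

@[simp] theorem toR_toC (z : ℝ × ℝ) : toR (toC z) = z := rfl
@[simp] theorem toC_toR (w : ℂ) : toC (toR w) = w := rfl
@[simp] theorem toR_fst (w : ℂ) : (toR w).1 = w.re := rfl
@[simp] theorem toR_snd (w : ℂ) : (toR w).2 = w.im := rfl
@[simp] theorem toC_re (z : ℝ × ℝ) : (toC z).re = z.1 := rfl
@[simp] theorem toC_im (z : ℝ × ℝ) : (toC z).im = z.2 := rfl

theorem toR_eq : toR = Complex.equivRealProdCLM := by
  funext w; simp [toR, Complex.equivRealProdCLM_apply]

theorem toC_eq : toC = Complex.equivRealProdCLM.symm := by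
  funext z
  rw [ContinuousLinearEquiv.eq_symm_apply, ← toR_eq, toR_toC]

theorem toR_cont : Continuous toR := by rw [toR_eq]; exact Complex.equivRealProdCLM.continuous
theorem toC_cont : Continuous toC := by rw [toC_eq]; exact Complex.equivRealProdCLM.symm.continuous

theorem hasFDerivAt_toR (w : ℂ) :
    HasFDerivAt toR (Complex.equivRealProdCLM : ℂ →L[ℝ] ℝ × ℝ) w := by
  rw [toR_eq]
  exact Complex.equivRealProdCLM.hasFDerivAt

theorem toR_smooth (n : WithTop ℕ∞) : ContDiff ℝ n toR := by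
  rw [toR_eq]; exact Complex.equivRealProdCLM.contDiff

theorem toC_smooth (n : WithTop ℕ∞) : ContDiff ℝ n toC := by
  rw [toC_eq]; exact Complex.equivRealProdCLM.symm.contDiff

theorem fderiv_toR {u : ℝ × ℝ → ℝ} {w : ℂ} (hu : DifferentiableAt ℝ u (toR w)) (v : ℂ) :
    fderiv ℝ (fun w => u (toR w)) w v = fderiv ℝ u (toR w) (toR v) := by
  have h := hu.hasFDerivAt.comp w (hasFDerivAt_toR w)
  have h' : HasFDerivAt (fun w => u (toR w)) _ w := h
  rw [h'.fderiv]
  simp [toR_eq]

/-- The second derivative in the direction `v`. -/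
theorem second_toR {u : ℝ × ℝ → ℝ} {w : ℂ} (hu : ContDiffAt ℝ 2 u (toR w)) (v : ℂ) :
    iteratedFDeriv ℝ 2 (fun w => u (toR w)) w ![v, v] =
      fderiv ℝ (fun z => fderiv ℝ u z (toR v)) (toR w) (toR v) := by
  have hf : ContDiffAt ℝ 2 (fun w => u (toR w)) w :=
    hu.comp w (toR_smooth 2).contDiffAt
  have h1 : DifferentiableAt ℝ (fderiv ℝ fun w => u (toR w)) w :=
    (hf.fderiv_right (m := 1) (by norm_num)).differentiableAt (by simp)
  have h1' : DifferentiableAt ℝ (fderiv ℝ u) (toR w) :=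
    (hu.fderiv_right (m := 1) (by norm_num)).differentiableAt (by simp)
  rw [iteratedFDeriv_two_apply]
  simp only [Matrix.cons_val_zero, Matrix.cons_val_one]
  have h2 : fderiv ℝ (fun y => fderiv ℝ (fun w => u (toR w)) y v) w v =
      fderiv ℝ (fderiv ℝ fun w => u (toR w)) w v v := by
    have h3 := (h1.hasFDerivAt.clm_apply (hasFDerivAt_const v w)).fderiv
    rw [h3]
    simp
  rw [← h2]
  have h4 : (fun y => fderiv ℝ (fun w => u (toR w)) y v) =ᶠ[𝓝 w]
      fun y => (fun z => fderiv ℝ u z (toR v)) (toR y) := by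
    have h5 : ∀ᶠ z in 𝓝 (toR w), DifferentiableAt ℝ u z := by
      filter_upwards [hu.eventually (by simp)] with z hz
      exact hz.differentiableAt (by simp)
    filter_upwards [toR_cont.continuousAt.eventually h5] with y hy
    exact fderiv_toR hy v
  rw [h4.fderiv_eq]
  exact fderiv_toR ((h1'.clm_apply (differentiableAt_const _))) v

theorem laplacian_toR {u : ℝ × ℝ → ℝ} {w : ℂ} (hu : ContDiffAt ℝ 2 u (toR w)) :
    Δ (fun w => u (toR w)) w = lap u (toR w) := by
  rw [laplacian_eq_iteratedFDeriv_complexPlane]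
  simp only
  rw [second_toR hu, second_toR hu]
  have e1 : toR 1 = (1, 0) := by simp [toR]
  have e2 : toR Complex.I = (0, 1) := by simp [toR]
  rw [e1, e2]
  rfl

/-- The two notions of harmonic functions agree. -/
theorem harm_iff {D : Set (ℝ × ℝ)} (hD : IsOpen D) {u : ℝ × ℝ → ℝ} :
    Harm D u ↔ ∀ z ∈ D, HarmonicAt (fun w => u (toR w)) (toC z) := by
  constructor
  · intro h z hz
    have hc : ∀ y ∈ D, ContDiffAt ℝ 2 u y := fun y hy =>
      (h.smooth.contDiffAt (hD.mem_nhds hy)).of_le (by norm_cast)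
    refine ⟨ContDiffAt.comp (toC z) (hc z hz) (toR_smooth 2).contDiffAt, ?_⟩
    have hO : IsOpen (toR ⁻¹' D) := hD.preimage toR_cont
    filter_upwards [hO.mem_nhds (show toC z ∈ toR ⁻¹' D by simpa using hz)] with w hw
    rw [laplacian_toR (hc _ hw), h.lapz _ hw]
    rfl
  · intro h
    have hc : ∀ z ∈ D, ContDiffAt ℝ ((⊤ : ℕ∞) : WithTop ℕ∞) u z := by
      intro z hz
      have h1 : ContDiffAt ℝ ((⊤ : ℕ∞) : WithTop ℕ∞) (fun w => u (toR w)) (toC z) :=
        (HarmonicAt.analyticAt (h z hz)).contDiffAt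
      have h2 := ContDiffAt.comp z h1 (toC_smooth ((⊤ : ℕ∞) : WithTop ℕ∞)).contDiffAt
      exact h2
    refine ⟨fun z hz => (hc z hz).contDiffWithinAt, fun z hz => ?_⟩
    have h1 := (h z hz).2.self_of_nhds
    rw [laplacian_toR ((hc z hz).of_le (by norm_cast))] at h1
    simpa using h1

/-- A harmonic function composed with a holomorphic map. -/
theorem harmonicAt_comp {T : ℂ → ℝ} {F : ℂ → ℂ} {w : ℂ} (hF : AnalyticAt ℂ F w)
    (hT : HarmonicAt T (F w)) : HarmonicAt (fun w => T (F w)) w := by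
  obtain ⟨ε, hε, hball⟩ := Metric.isOpen_iff.1 (isOpen_setOfPred_harmonicAt (f := T)) (F w) hT
  obtain ⟨H, hH, hHe⟩ := InnerProductSpace.HarmonicOnNhd.exists_analyticOnNhd_ball_re_eq
    (fun _ hy ↦ hball hy)
  have h1 : AnalyticAt ℂ (fun w => H (F w)) w := (hH (F w) (Metric.mem_ball_self hε)).comp hF
  have h2 : HarmonicAt (fun w => (H (F w)).re) w := h1.harmonicAt_re
  refine (harmonicAt_congr_nhds ?_).1 h2
  filter_upwards [hF.continuousAt.eventually (Metric.ball_mem_nhds _ hε)] with y hy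
  exact hHe hy

theorem harm_comp {D O : Set (ℝ × ℝ)} (hD : IsOpen D) (hO : IsOpen O) {u : ℝ × ℝ → ℝ}
    (hu : Harm D u) {F : ℂ → ℂ} (hF : ∀ z ∈ O, AnalyticAt ℂ F (toC z))
    (hFD : ∀ z ∈ O, toR (F (toC z)) ∈ D) : Harm O fun z => u (toR (F (toC z))) := by
  rw [harm_iff hO]
  intro z hz
  simp only [toC_toR]
  refine harmonicAt_comp (T := fun w => u (toR w)) (hF z hz) ?_
  have := (harm_iff hD).1 hu _ (hFD z hz)
  simpa using this

end Vale.Agent.P145W85.P153.R2.KAPV
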