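import Vale.Agent.P145W85.K.Refl
import Vale.Agent.P145W85.K.Bridge

/-!
P153, block KAPV: boundary decay in a conformal image of the half-plane from vertical limits.
-/

set_option autoImplicit false

namespace Vale.Agent.P145W85.P153.R2.KAPV

open Filter Topology Set MeasureTheory
open Vale.Agent.P145W85.P145.PT Vale.Agent.P145W85.P153.R2.FLDI

/-- The open upper half-plane. -/
def HP : Set ℂ := {w | 0 < w.im}

theorem HP_open : IsOpen HP := isOpen_lt continuous_const Complex.continuous_im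

/-- `F` is a conformal map of the upper half-plane onto `D`, with inverse `G`. -/
structure Unif (D : Set (ℝ × ℝ)) (F G : ℂ → ℂ) : Prop where
  Fd : DifferentiableOn ℂ F HP
  Fm : ∀ w ∈ HP, toR (F w) ∈ D
  Gd : ∀ z ∈ D, DifferentiableAt ℂ G (toC z)
  Gm : ∀ z ∈ D, G (toC z) ∈ HP
  FG : ∀ z ∈ D, F (G (toC z)) = toC z
  GF : ∀ w ∈ HP, G (F w) = w

variable {D : Set (ℝ × ℝ)} {F G : ℂ → ℂ}

theorem Unif.Fan (h : Unif D F G) {w : ℂ} (hw : w ∈ HP) : AnalyticAt ℂ F w :=
  h.Fd.analyticAt (HP_open.mem_nhds hw)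

theorem Unif.Gc (h : Unif D F G) {z : ℝ × ℝ} (hz : z ∈ D) :
    ContinuousAt (fun z => G (toC z)) z :=
  (h.Gd z hz).continuousAt.comp toC_cont.continuousAt

theorem Unif.cpt (h : Unif D F G) {K : Set (ℝ × ℝ)} (hK : IsCompact K) (hKD : K ⊆ D) :
    ∃ s R : ℝ, 0 < s ∧ 0 < R ∧ ∀ x ∈ K, s ≤ (G (toC x)).im ∧ ‖G (toC x)‖ ≤ R := by
  rcases K.eq_empty_or_nonempty with he | hne
  · exact ⟨1, 1, one_pos, one_pos, fun x hx => by rw [he] at hx; exact absurd hx (notMem_empty _)⟩
  · have hc : ContinuousOn (fun z => G (toC z)) K := fun z hz => (h.Gc (hKD hz)).continuousWithinAt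
    obtain ⟨z0, hz0, hmin⟩ := hK.exists_isMinOn hne (Complex.continuous_im.comp_continuousOn hc)
    obtain ⟨R, hR⟩ := hK.exists_bound_of_continuousOn hc
    refine ⟨(G (toC z0)).im, max R 1, h.Gm z0 (hKD hz0), by positivity, fun x hx => ⟨?_, ?_⟩⟩
    · exact hmin hx
    · exact (hR x hx).trans (le_max_left _ _)

theorem dd_compact (hb : Bornology.IsBounded D) (hD : IsOpen D) {r : ℝ} (hr : 0 < r) :
    IsCompact {x | r ≤ dd D x} ∧ {x | r ≤ dd D x} ⊆ D := by
  have hs : {x | r ≤ dd D x} ⊆ D := fun x hx => (dd_pos hD hb).1 (lt_of_lt_of_le hr hx)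
  exact ⟨Metric.isCompact_of_isClosed_isBounded (isClosed_le continuous_const (dd_cont D))
    (hb.subset hs), hs⟩

theorem Unif.near (h : Unif D F G) (hD : IsOpen D) (hb : Bornology.IsBounded D) {r : ℝ}
    (hr : 0 < r) : ∃ s R : ℝ, 0 < s ∧ 0 < R ∧ ∀ w ∈ HP, (w.im < s ∨ R < ‖w‖) →
      dd D (toR (F w)) < r := by
  obtain ⟨hK, hKD⟩ := dd_compact hb hD hr
  obtain ⟨s, R, hs, hR, hx⟩ := h.cpt hK hKD
  refine ⟨s, R, hs, hR, fun w hw hor => ?_⟩
  by_contra hc
  obtain ⟨h1, h2⟩ := hx (toR (F w)) (not_lt.1 hc)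
  rw [toC_toR, h.GF w hw] at h1 h2
  rcases hor with h3 | h3 <;> linarith

/-- A family of harmonic functions in half balls gives a `HalfFn`. -/
theorem halfFn_of {c s K : ℝ} (hs : 0 < s) (hK : 0 ≤ K) {v : ℝ × ℝ → ℝ} (hv : Harm (hb c s) v)
    (hvK : ∀ z ∈ hb c s, |v z| ≤ K)
    (hlim : ∀ᵐ x : ℝ, x ∈ Ioo (c - s) (c + s) → Tendsto (fun y => v (x, y)) (𝓝[>] 0) (𝓝 0)) :
    HalfFn c s K ((hb c s).indicator v) := by
  have hopen : IsOpen (hb c s) :=
    Metric.isOpen_ball.inter (isOpen_lt continuous_const continuous_snd)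
  have hbd : Bornology.IsBounded (hb c s) := Metric.isBounded_ball.subset inter_subset_left
  refine ⟨hs, ?_, fun z => ?_, fun z hz => indicator_of_notMem hz _, ?_, fun ψ hψ => ?_, ?_⟩
  · classical
    have h1 := (hv.smooth.continuousOn).measurable_piecewise
      (continuousOn_const (c := (0 : ℝ)) (s := (hb c s)ᶜ)) hopen.measurableSet
    have h2 : (hb c s).piecewise v (fun _ => (0 : ℝ)) = (hb c s).indicator v := by
      funext z
      by_cases hz : z ∈ hb c s
      · rw [piecewise_eq_of_mem _ _ _ hz, indicator_of_mem hz]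
      · rw [piecewise_eq_of_notMem _ _ _ hz, indicator_of_notMem hz]
    rw [← h2]
    convert h1
  · by_cases hz : z ∈ hb c s
    · rw [indicator_of_mem hz]; exact hvK z hz
    · rw [indicator_of_notMem hz, abs_zero]; exact hK
  · exact hv.smooth.continuousOn.congr fun z hz => indicator_of_mem hz _
  · rw [← hv.weak hopen hbd hψ]
    congr 1
    funext z
    by_cases hz : z ∈ hb c s
    · rw [indicator_of_mem hz]
    · have : lap ψ z = 0 := by
        by_contra h
        exact hz (hψ.lap.2.2 (subset_tsupport _ h))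
      rw [this, mul_zero, mul_zero]
  · filter_upwards [hlim] with x hx
    by_cases hxI : x ∈ Ioo (c - s) (c + s)
    · refine (hx hxI).congr' ?_
      have h1 : ∀ᶠ y : ℝ in 𝓝[>] 0, y < s := by
        refine mem_nhdsWithin_of_mem_nhds (Iio_mem_nhds hs)
      filter_upwards [h1, self_mem_nhdsWithin] with y hy hy0
      have hy0' : 0 < y := hy0
      rw [indicator_of_mem]
      refine ⟨?_, hy0'⟩
      rw [Metric.mem_ball, Prod.dist_eq, max_lt_iff]
      simp only [Real.dist_eq, sub_zero]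
      refine ⟨?_, by rwa [abs_of_pos hy0']⟩
      rw [abs_lt]
      exact ⟨by linarith [hxI.1], by linarith [hxI.2]⟩
    · refine tendsto_const_nhds.congr fun y => ?_
      rw [indicator_of_notMem]
      intro hz
      refine hxI ?_
      have h1 : dist (x, y) ((c, 0) : ℝ × ℝ) < s := hz.1
      rw [Prod.dist_eq, max_lt_iff] at h1
      have h2 := h1.1
      simp only [Real.dist_eq] at h2
      rw [abs_lt] at h2
      exact ⟨by linarith [h2.1], by linarith [h2.2]⟩

/-- The value of the functional at a Whitney ball. -/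
noncomputable def wv (D : Set (ℝ × ℝ)) (T : (ℝ × ℝ → ℝ) → ℝ) (x : ℝ × ℝ) : ℝ :=
  T (bump (dd D x / 2) x)

/-- Near the boundary the functional is a harmonic function. -/
theorem exists_harm (hD : IsOpen D) (hb : Bornology.IsBounded D) {T : (ℝ × ℝ → ℝ) → ℝ} {C : ℝ}
    (hT : L2Fn D T C) {g : ℝ × ℝ → ℝ} (hg : TestOn D g)
    (heq : ∀ ψ, TestOn D ψ → T (lap ψ) = - ∫ z, ψ z * g z) :
    ∃ ρ : ℝ, 0 < ρ ∧ ∃ u : ℝ × ℝ → ℝ, Harm {x | 0 < dd D x ∧ dd D x < ρ} u ∧
      ∀ x ∈ D, dd D x < ρ → wv D T x = u x := by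
  obtain ⟨ρ, hρ, hgz⟩ := exists_low hD hb hg
  set D' : Set (ℝ × ℝ) := {x | 0 < dd D x ∧ dd D x < ρ} with hD'
  have hD'D : D' ⊆ D := fun x hx => (dd_pos hD hb).1 hx.1
  have hO : IsOpen D' := (isOpen_lt continuous_const (dd_cont D)).inter
    (isOpen_lt (dd_cont D) continuous_const)
  have hb' : Bornology.IsBounded D' := hb.subset hD'D
  have hT' : L2Fn D' T C := ⟨fun f g hf hg => hT.add f g (hf.mono hD'D) (hg.mono hD'D),
    fun c f hf => hT.smul c f (hf.mono hD'D), fun f hf => hT.bd f (hf.mono hD'D)⟩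
  have heq' : ∀ ψ, TestOn D' ψ → T (lap ψ) = 0 := fun ψ hψ => by
    rw [heq ψ (hψ.mono hD'D), neg_eq_zero, ← integral_zero (ℝ × ℝ) ℝ]
    congr 1
    funext z
    by_cases hz : z ∈ D'
    · rw [hgz z hz.2.le, mul_zero]
    · have : ψ z = 0 := by
        by_contra h
        exact hz (hψ.2.2 (subset_tsupport _ h))
      rw [this, zero_mul]
  refine ⟨ρ / 2, by linarith, uT D' T, ?_, fun x hx hxr => ?_⟩
  · have h1 := (uT_spec hO hb' hT' heq').1
    refine ⟨h1.smooth.mono fun x hx => ⟨hx.1, hx.2.trans (by linarith)⟩,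
      fun z hz => h1.lapz z ⟨hz.1, hz.2.trans (by linarith)⟩⟩
  · obtain ⟨u, hu, huD, hTu⟩ := rep hO hb' hT'
    have hx0 : 0 < dd D x := (dd_pos hD hb).2 hx
    have hxD' : x ∈ D' := ⟨hx0, by linarith⟩
    have hball : Metric.closedBall x (dd D x / 2) ⊆ D' := by
      intro y hy
      refine ⟨(dd_pos hD hb).2 (ball_sub (show dd D x / 2 < dd D x by linarith) hy), ?_⟩
      have h1 := dd_le_add D y x
      rw [Metric.mem_closedBall] at hy
      linarith
    have hle : dd D' x ≤ dd D x := by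
      unfold dd
      exact Metric.infDist_le_infDist_of_subset (compl_subset_compl.2 hD'D) (compl_ne hb)
    have hx0' : 0 < dd D' x := (dd_pos hO hb').2 hxD'
    unfold wv uT
    rw [hTu _ (bump_test (by linarith) hball), hTu _ (bump_test (by linarith)
      (ball_sub (by linarith)))]
    refine bump_const (f := fun _ => 0) hu (fun ψ hψ => ?_) (by linarith) (by linarith) hball
      fun z _ => rfl
    rw [← hTu _ hψ.lap, heq' ψ hψ]
    simp

/-- Inversion. -/
theorem neg_inv_im {w : ℂ} (hw : w ∈ HP) : -w⁻¹ ∈ HP := by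
  have h0 : 0 < w.im := hw
  have hn : 0 < Complex.normSq w := Complex.normSq_pos.2 fun h => by rw [h] at h0; simp at h0
  change 0 < (-w⁻¹).im
  rw [Complex.neg_im, Complex.inv_im]
  have : 0 < w.im / Complex.normSq w := by positivity
  rw [neg_div, neg_neg]
  exact this

theorem HP_ne {w : ℂ} (hw : w ∈ HP) : w ≠ 0 := fun h => by
  have h0 : 0 < w.im := hw
  rw [h] at h0
  simp at h0

theorem norm_toC_le (z : ℝ × ℝ) : ‖toC z‖ ≤ 2 * ‖z‖ := by
  have h1 := Complex.norm_le_abs_re_add_abs_im (toC z)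
  have h2 := norm_fst_le z
  have h3 := norm_snd_le z
  rw [Real.norm_eq_abs] at h2 h3
  simp only [toC_re, toC_im] at h1
  linarith

theorem dist_toR_le (w : ℂ) (c : ℝ) : dist (toR w) (c, 0) ≤ ‖w - c‖ := by
  rw [Prod.dist_eq]
  refine max_le ?_ ?_
  · simp only [toR_fst, Real.dist_eq]
    have := Complex.abs_re_le_norm (w - c)
    simpa using this
  · simp only [toR_snd, Real.dist_eq, sub_zero]
    have := Complex.abs_im_le_norm (w - c)
    simpa using this

/-- Decay at the boundary from vertical limits. -/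
theorem dec_prime (hD : IsOpen D) (hb : Bornology.IsBounded D) (hU : Unif D F G)
    {T : (ℝ × ℝ → ℝ) → ℝ} {C : ℝ} (hT : L2Fn D T C) {g : ℝ × ℝ → ℝ} (hg : TestOn D g)
    (heq : ∀ ψ, TestOn D ψ → T (lap ψ) = - ∫ z, ψ z * g z)
    (hbd : ∃ K r : ℝ, 0 < r ∧ ∀ x ∈ D, dd D x < r → |wv D T x| ≤ K)
    (hlim : ∀ᵐ y : ℝ, Tendsto (fun η : ℝ => wv D T (toR (F ⟨y, η⟩))) (𝓝[>] 0) (𝓝 0)) :
    DecE D ∅ T := by
  obtain ⟨ρ, hρ, u, hu, hwu⟩ := exists_harm hD hb hT hg heq
  obtain ⟨K, r, hr, hK⟩ := hbd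
  set r1 := min ρ r with hr1
  have hr10 : 0 < r1 := lt_min hρ hr
  obtain ⟨s0, R0, hs0, hR0, hnear⟩ := hU.near hD hb hr10
  have hDo : IsOpen {x | 0 < dd D x ∧ dd D x < ρ} :=
    (isOpen_lt continuous_const (dd_cont D)).inter (isOpen_lt (dd_cont D) continuous_const)
  have hval : ∀ w ∈ HP, (w.im < s0 ∨ R0 < ‖w‖) → toR (F w) ∈ {x | 0 < dd D x ∧ dd D x < ρ} ∧
      wv D T (toR (F w)) = u (toR (F w)) ∧ |u (toR (F w))| ≤ |K| := by
    intro w hw hor
    have h1 := hnear w hw hor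
    have h2 : toR (F w) ∈ D := hU.Fm w hw
    have h3 : dd D (toR (F w)) < ρ := lt_of_lt_of_le h1 (min_le_left _ _)
    have h4 := hwu _ h2 h3
    refine ⟨⟨(dd_pos hD hb).2 h2, h3⟩, h4, ?_⟩
    rw [← h4]
    exact (hK _ h2 (lt_of_lt_of_le h1 (min_le_right _ _))).trans (le_abs_self _)
  -- finite boundary points
  have S1 : ∀ c ε : ℝ, 0 < ε → ∃ q : ℝ, 0 < q ∧ ∀ w ∈ HP, ‖w - c‖ < q →
      |wv D T (toR (F w))| < ε := by
    intro c ε hε
    have hin : ∀ z ∈ KAPV.hb c (s0 / 2), toC z ∈ HP ∧ (toC z).im < s0 := by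
      intro z hz
      refine ⟨hz.2, ?_⟩
      have h1 : dist z (c, 0) < s0 / 2 := hz.1
      rw [Prod.dist_eq, max_lt_iff] at h1
      have h2 := h1.2
      simp only [Real.dist_eq, sub_zero] at h2
      have h3 := (abs_lt.1 h2).2
      rw [toC_im]
      linarith
    have hopen : IsOpen (KAPV.hb c (s0 / 2)) :=
      Metric.isOpen_ball.inter (isOpen_lt continuous_const continuous_snd)
    have hv : Harm (KAPV.hb c (s0 / 2)) fun z => u (toR (F (toC z))) :=
      harm_comp hDo hopen hu (fun z hz => hU.Fan (hin z hz).1)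
        fun z hz => (hval _ (hin z hz).1 (Or.inl (hin z hz).2)).1
    have hH := halfFn_of (c := c) (s := s0 / 2) (K := |K|) (by linarith) (abs_nonneg _) hv
      (fun z hz => (hval _ (hin z hz).1 (Or.inl (hin z hz).2)).2.2) (by
        filter_upwards [hlim] with x hx _
        refine hx.congr' ?_
        have h1 : ∀ᶠ y : ℝ in 𝓝[>] 0, y < s0 :=
          mem_nhdsWithin_of_mem_nhds (Iio_mem_nhds hs0)
        filter_upwards [h1, self_mem_nhdsWithin] with y hy hy0
        exact (hval ⟨x, y⟩ hy0 (Or.inl hy)).2.1)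
    obtain ⟨q, hq, hqs⟩ := hH.small hε
    refine ⟨min q (s0 / 2), lt_min hq (by linarith), fun w hw hwc => ?_⟩
    have h1 := dist_toR_le w c
    have h2 := hqs (toR w) (by linarith [min_le_left q (s0 / 2)]) hw
    have h3 : toR w ∈ KAPV.hb c (s0 / 2) := by
      refine ⟨?_, hw⟩
      rw [Metric.mem_ball]
      linarith [min_le_right q (s0 / 2)]
    rw [indicator_of_mem h3] at h2
    rw [(hval w hw (Or.inl (by
      have := (hin _ h3).2
      simpa using this))).2.1]
    simpa using h2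
  -- infinity
  have S2 : ∀ ε : ℝ, 0 < ε → ∃ R : ℝ, 0 < R ∧ ∀ w ∈ HP, R < ‖w‖ →
      |wv D T (toR (F w))| < ε := by
    intro ε hε
    set s : ℝ := 1 / (2 * (R0 + 1)) with hs
    have hs00 : 0 < s := by positivity
    have hin : ∀ z ∈ KAPV.hb 0 s, toC z ∈ HP ∧ -(toC z)⁻¹ ∈ HP ∧ R0 < ‖-(toC z)⁻¹‖ := by
      intro z hz
      have h0 : toC z ∈ HP := hz.2
      refine ⟨h0, neg_inv_im h0, ?_⟩
      have h1 : dist z (0, 0) < s := hz.1
      have h2 : ‖z‖ < s := by
        rw [← dist_zero_right]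
        exact h1
      have h3 := norm_toC_le z
      have h4 : 0 < ‖toC z‖ := norm_pos_iff.2 (HP_ne h0)
      rw [norm_neg, norm_inv]
      have h5 : ‖toC z‖ < 1 / (R0 + 1) := by
        have : 2 * s = 1 / (R0 + 1) := by rw [hs]; field_simp
        linarith
      have h6 : R0 + 1 < ‖toC z‖⁻¹ := by
        rw [lt_inv_comm₀ (by positivity) h4]
        rwa [one_div] at h5
      linarith
    have hopen : IsOpen (KAPV.hb 0 s) :=
      Metric.isOpen_ball.inter (isOpen_lt continuous_const continuous_snd)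
    have hv : Harm (KAPV.hb 0 s) fun z => u (toR ((fun w => F (-w⁻¹)) (toC z))) :=
      harm_comp (F := fun w => F (-w⁻¹)) hDo hopen hu (fun z hz => by
          have h1 : AnalyticAt ℂ (fun w : ℂ => -w⁻¹) (toC z) :=
            ((analyticAt_id).inv (HP_ne (hin z hz).1)).neg
          exact AnalyticAt.comp (f := fun w : ℂ => -w⁻¹) (hU.Fan (hin z hz).2.1) h1)
        fun z hz => (hval _ (hin z hz).2.1 (Or.inr (hin z hz).2.2)).1
    have hae : ∀ᵐ x : ℝ, x ≠ 0 := by
      have : (volume : Measure ℝ) {(0 : ℝ)} = 0 := by simp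
      exact (measure_eq_zero_iff_ae_notMem.1 this).mono fun x hx h => hx h
    have hH := halfFn_of (c := 0) (s := s) (K := |K|) hs00 (abs_nonneg _) hv
      (fun z hz => (hval _ (hin z hz).2.1 (Or.inr (hin z hz).2.2)).2.2) (by
        filter_upwards [hae] with x hx hxs
        rw [Metric.tendsto_nhds]
        intro δ hδ
        obtain ⟨q, hq, hqc⟩ := S1 (-x⁻¹) δ hδ
        have hct : Tendsto (fun y : ℝ => -(⟨x, y⟩ : ℂ)⁻¹) (𝓝[>] 0) (𝓝 (-(x : ℂ)⁻¹)) := by
          have h1 : Tendsto (fun y : ℝ => (⟨x, y⟩ : ℂ)) (𝓝[>] 0) (𝓝 (x : ℂ)) := by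
            have h2 : Continuous fun y : ℝ => (⟨x, y⟩ : ℂ) := by
              have : (fun y : ℝ => (⟨x, y⟩ : ℂ)) = fun y : ℝ => (x : ℂ) + y * Complex.I := by
                funext y
                apply Complex.ext <;> simp
              rw [this]
              fun_prop
            have h3 := h2.tendsto 0
            have e : (⟨x, 0⟩ : ℂ) = (x : ℂ) := rfl
            rw [e] at h3
            exact h3.mono_left nhdsWithin_le_nhds
          exact (h1.inv₀ (by exact_mod_cast hx)).neg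
        have h3 := (Metric.tendsto_nhds.1 hct) q hq
        have h4 : ∀ᶠ y : ℝ in 𝓝[>] 0, y < s := mem_nhdsWithin_of_mem_nhds (Iio_mem_nhds hs00)
        filter_upwards [h3, h4, self_mem_nhdsWithin] with y hy hys hy0
        have hz : ((x, y) : ℝ × ℝ) ∈ KAPV.hb 0 s := by
          refine ⟨?_, hy0⟩
          rw [Metric.mem_ball, Prod.dist_eq, max_lt_iff]
          simp only [Real.dist_eq, sub_zero]
          refine ⟨?_, by rwa [abs_of_pos hy0]⟩
          rw [abs_lt]
          exact ⟨by linarith [hxs.1], by linarith [hxs.2]⟩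
        have h5 := hin _ hz
        have h6 := hqc _ h5.2.1 (by
          rw [← dist_eq_norm]
          push_cast
          exact hy)
        rw [(hval _ h5.2.1 (Or.inr h5.2.2)).2.1] at h6
        rw [Real.dist_eq, sub_zero]
        exact h6)
    obtain ⟨q, hq, hqs⟩ := hH.small hε
    refine ⟨1 / min q s, by positivity, fun w hw hwR => ?_⟩
    have hm : 0 < min q s := lt_min hq hs00
    have hw0 : 0 < ‖w‖ := norm_pos_iff.2 (HP_ne hw)
    have hζ := neg_inv_im hw
    have h1 : ‖-w⁻¹‖ < min q s := by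
      rw [norm_neg, norm_inv]
      rw [inv_lt_comm₀ hw0 hm]
      rwa [one_div] at hwR
    have h2 := dist_toR_le (-w⁻¹) 0
    rw [Complex.ofReal_zero, sub_zero] at h2
    have h3 : toR (-w⁻¹) ∈ KAPV.hb 0 s := by
      refine ⟨?_, hζ⟩
      rw [Metric.mem_ball]
      exact lt_of_le_of_lt h2 (lt_of_lt_of_le h1 (min_le_right _ _))
    have h4 := hqs (toR (-w⁻¹)) (lt_of_le_of_lt h2 (lt_of_lt_of_le h1 (min_le_left _ _))) hζ
    rw [indicator_of_mem h3] at h4
    have e : -(-w⁻¹)⁻¹ = w := by rw [inv_neg, inv_inv, neg_neg]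
    simp only [toC_toR] at h4
    rw [e] at h4
    have h5 := (hin _ h3).2.2
    rw [toC_toR, e] at h5
    rw [(hval w hw (Or.inr h5)).2.1]
    exact h4
  -- conclusion
  refine ⟨fun ε _ hε _ => ?_, ⟨K, r, hr, hK⟩⟩
  by_contra hcon
  push Not at hcon
  have hx : ∀ n : ℕ, ∃ x ∈ D, dd D x < 1 / ((n : ℝ) + 1) ∧ ε < |wv D T x| := by
    intro n
    obtain ⟨x, hx, h1, -, h2⟩ := hcon (1 / ((n : ℝ) + 1)) (by positivity)
    exact ⟨x, hx, h1, h2⟩
  choose x hxD hxd hxε using hx
  obtain ⟨R, hR, hRs⟩ := S2 ε hε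
  have hw : ∀ n, G (toC (x n)) ∈ Metric.closedBall (0 : ℂ) R := by
    intro n
    rw [mem_closedBall_zero_iff]
    by_contra h
    have h1 := hRs _ (hU.Gm _ (hxD n)) (not_le.1 h)
    rw [hU.FG _ (hxD n), toR_toC] at h1
    exact absurd h1 (not_lt.2 (hxε n).le)
  obtain ⟨w, -, φ, hφ, hlimw⟩ := (isCompact_closedBall (0 : ℂ) R).tendsto_subseq hw
  have him : 0 ≤ w.im := by
    refine ge_of_tendsto' ((Complex.continuous_im.tendsto w).comp hlimw) fun n => ?_
    exact le_of_lt (show 0 < (G (toC (x (φ n)))).im from hU.Gm _ (hxD (φ n)))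
  rcases him.eq_or_lt with h0 | hpos
  · obtain ⟨q, hq, hqc⟩ := S1 w.re ε hε
    have h1 := (Metric.tendsto_atTop.1 hlimw) q hq
    obtain ⟨N, hN⟩ := h1
    have h2 := hN N le_rfl
    have ew : w = (w.re : ℂ) := by apply Complex.ext <;> simp [← h0]
    rw [ew, dist_eq_norm] at h2
    have h3 := hqc _ (hU.Gm _ (hxD (φ N))) h2
    rw [hU.FG _ (hxD (φ N)), toR_toC] at h3
    exact absurd h3 (not_lt.2 (hxε (φ N)).le)
  · have hwH : w ∈ HP := hpos
    have h1 : Tendsto (fun n => dd D (toR (F (G (toC (x (φ n))))))) atTop (𝓝 (dd D (toR (F w)))) := by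
      have hc : ContinuousAt (fun w => dd D (toR (F w))) w :=
        ((dd_cont D).comp toR_cont).continuousAt.comp (hU.Fan hwH).continuousAt
      exact hc.tendsto.comp hlimw
    have h2 : Tendsto (fun n => dd D (toR (F (G (toC (x (φ n))))))) atTop (𝓝 0) := by
      have h3 : Tendsto (fun n : ℕ => 1 / ((φ n : ℝ) + 1)) atTop (𝓝 0) :=
        tendsto_one_div_add_atTop_nhds_zero_nat.comp hφ.tendsto_atTop
      refine squeeze_zero (fun n => Metric.infDist_nonneg) (fun n => ?_) h3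
      rw [hU.FG _ (hxD (φ n)), toR_toC]
      exact (hxd (φ n)).le
    have h3 := tendsto_nhds_unique h1 h2
    have h4 := (dd_pos hD hb).2 (hU.Fm w hwH)
    linarith

end Vale.Agent.P145W85.P153.R2.KAPV
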