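import Vale.Agent.P145W85.Bd.B7

/-!
P153, block KAPV: reflection. A bounded function which is harmonic in the upper half of a ball
centred on the real line, with vertical limits `0` almost everywhere on the diameter, is small near
the diameter.
-/

set_option autoImplicit false

namespace Vale.Agent.P145W85.P153.R2.KAPV

open Filter Topology Set MeasureTheory
open Vale.Agent.P145W85.P145.PT

/-- Reflection. -/
def cj (z : ℝ × ℝ) : ℝ × ℝ := (z.1, -z.2)

@[simp] theorem cj_fst (z : ℝ × ℝ) : (cj z).1 = z.1 := rfl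
@[simp] theorem cj_snd (z : ℝ × ℝ) : (cj z).2 = -z.2 := rfl
@[simp] theorem cj_cj (z : ℝ × ℝ) : cj (cj z) = z := by simp [cj]

/-- Reflection as a continuous linear map. -/
noncomputable def cjL : (ℝ × ℝ) →L[ℝ] (ℝ × ℝ) :=
  (ContinuousLinearMap.fst ℝ ℝ ℝ).prod (-(ContinuousLinearMap.snd ℝ ℝ ℝ))

theorem cjL_apply (z : ℝ × ℝ) : cjL z = cj z := by simp [cjL, cj]

theorem cj_eq : cj = cjL := by funext z; rw [cjL_apply]

theorem cj_smooth : ContDiff ℝ ((⊤ : ℕ∞) : WithTop ℕ∞) cj := by
  rw [cj_eq]; exact cjL.contDiff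

theorem cj_cont : Continuous cj := cj_smooth.continuous

theorem cj_mp : MeasurePreserving cj (volume : Measure (ℝ × ℝ)) volume := by
  have h := (MeasurePreserving.id (volume : Measure ℝ)).prod
    (Measure.measurePreserving_neg (volume : Measure ℝ))
  exact h

theorem cj_me : MeasurableEmbedding cj := by
  refine MeasurableEquiv.measurableEmbedding
    (⟨⟨cj, cj, cj_cj, cj_cj⟩, cj_cont.measurable, cj_cont.measurable⟩ : (ℝ × ℝ) ≃ᵐ (ℝ × ℝ))

theorem integral_cj (g : ℝ × ℝ → ℝ) : ∫ z, g (cj z) = ∫ z, g z :=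
  cj_mp.integral_comp cj_me g

theorem dist_cj (z w : ℝ × ℝ) : dist (cj z) (cj w) = dist z w := by
  simp only [Prod.dist_eq, cj_fst, cj_snd, Real.dist_eq]
  congr 1
  rw [show -z.2 - -w.2 = -(z.2 - w.2) by ring, abs_neg]

theorem fderiv_cj {g : ℝ × ℝ → ℝ} (hg : Sm g) (z v : ℝ × ℝ) :
    fderiv ℝ (fun z => g (cj z)) z v = fderiv ℝ g (cj z) (cj v) := by
  have h1 : HasFDerivAt cj cjL z := by rw [cj_eq]; exact cjL.hasFDerivAt
  have h2 := (hg.diff (cj z)).hasFDerivAt.comp z h1
  have h3 : HasFDerivAt (fun z => g (cj z)) _ z := h2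
  rw [h3.fderiv]
  simp [cjL_apply]

theorem lap_cj {g : ℝ × ℝ → ℝ} (hg : Sm g) (z : ℝ × ℝ) :
    lap (fun z => g (cj z)) z = lap g (cj z) := by
  have h1 : dx (fun z => g (cj z)) = fun z => dx g (cj z) := by
    funext w
    unfold dx
    rw [fderiv_cj hg]
    simp [cj]
  have h2 : dy (fun z => g (cj z)) = fun z => - dy g (cj z) := by
    funext w
    unfold dy
    rw [fderiv_cj hg]
    have : cj ((0 : ℝ), (1 : ℝ)) = -((0 : ℝ), (1 : ℝ)) := by simp [cj]
    rw [this, map_neg]
  unfold lap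
  rw [h1, h2]
  have h3 : dx (fun z => dx g (cj z)) z = dx (dx g) (cj z) := by
    unfold dx
    have := fderiv_cj hg.dx z (1, 0)
    unfold dx at this
    rw [this]
    simp [cj]
  have h4 : dy (fun z => - dy g (cj z)) z = dy (dy g) (cj z) := by
    have h5 : Sm fun z => dy g (cj z) := hg.dy.comp cj_smooth
    unfold dy at h5 ⊢
    rw [fderiv_fun_neg, neg_apply]
    have := fderiv_cj hg.dy z (0, 1)
    unfold dy at this
    rw [this]
    have : cj ((0 : ℝ), (1 : ℝ)) = -((0 : ℝ), (1 : ℝ)) := by simp [cj]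
    rw [this, map_neg, neg_neg]
  rw [h3, h4]

/-- The upper half of the ball. -/
def hb (c : ℝ) (s : ℝ) : Set (ℝ × ℝ) := Metric.ball ((c, 0) : ℝ × ℝ) s ∩ {z | 0 < z.2}

theorem ball_cj {c s : ℝ} {z : ℝ × ℝ} (hz : z ∈ Metric.ball ((c, 0) : ℝ × ℝ) s) :
    cj z ∈ Metric.ball ((c, 0) : ℝ × ℝ) s := by
  rw [Metric.mem_ball] at hz ⊢
  have : cj ((c, 0) : ℝ × ℝ) = (c, 0) := by simp [cj]
  rw [← this, dist_cj]
  exact hz

theorem testOn_cj {c s : ℝ} {ψ : ℝ × ℝ → ℝ} (h : TestOn (Metric.ball ((c, 0) : ℝ × ℝ) s) ψ) :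
    TestOn (Metric.ball ((c, 0) : ℝ × ℝ) s) (fun z => ψ (cj z)) := by
  have hsub : tsupport (fun z => ψ (cj z)) ⊆ cj ⁻¹' tsupport ψ := by
    refine closure_minimal ?_ ((isClosed_tsupport ψ).preimage cj_cont)
    intro z hz
    exact subset_tsupport ψ hz
  refine ⟨h.1.comp cj_smooth, ?_, ?_⟩
  · exact HasCompactSupport.comp_homeomorph h.2.1
      (⟨⟨cj, cj, cj_cj, cj_cj⟩, cj_cont, cj_cont⟩ : (ℝ × ℝ) ≃ₜ (ℝ × ℝ))
  · intro z hz
    have := ball_cj (h.2.2 (hsub hz))
    rwa [cj_cj] at this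

/-- The cutoff `θ(y / a)`, zero for `y ≤ a`, one for `y ≥ 2 a`. -/
noncomputable def th (a : ℝ) (z : ℝ × ℝ) : ℝ := Real.smoothTransition (z.2 / a - 1)

theorem th_smooth (a : ℝ) : Sm (th a) :=
  Real.smoothTransition.contDiff.comp ((contDiff_snd.div_const _).sub contDiff_const)

theorem th_zero {a : ℝ} (ha : 0 < a) {z : ℝ × ℝ} (h : z.2 ≤ a) : th a z = 0 := by
  refine Real.smoothTransition.zero_of_nonpos ?_
  have : z.2 / a ≤ 1 := by rwa [div_le_one ha]
  linarith

theorem th_one {a : ℝ} (ha : 0 < a) {z : ℝ × ℝ} (h : 2 * a ≤ z.2) : th a z = 1 := by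
  refine Real.smoothTransition.one_of_one_le ?_
  have : 2 ≤ z.2 / a := by rwa [le_div_iff₀ ha]
  linarith

theorem th_nonneg (a : ℝ) (z : ℝ × ℝ) : 0 ≤ th a z := Real.smoothTransition.nonneg _
theorem th_le_one (a : ℝ) (z : ℝ × ℝ) : th a z ≤ 1 := Real.smoothTransition.le_one _

/-- One-dimensional cutoff. -/
noncomputable def st (t : ℝ) : ℝ := Real.smoothTransition (t - 1)

theorem st_smooth : ContDiff ℝ ((⊤ : ℕ∞) : WithTop ℕ∞) st :=
  Real.smoothTransition.contDiff.comp (contDiff_id.sub contDiff_const)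

theorem st_out {t : ℝ} (h : t ∉ Icc (1 : ℝ) 2) :
    st =ᶠ[𝓝 t] fun _ => st t := by
  rw [mem_Icc, not_and_or, not_le, not_le] at h
  rcases h with h | h
  · filter_upwards [Iio_mem_nhds h] with u hu
    unfold st
    rw [Real.smoothTransition.zero_of_nonpos (by linarith [mem_Iio.1 hu]),
      Real.smoothTransition.zero_of_nonpos (by linarith)]
  · filter_upwards [Ioi_mem_nhds h] with u hu
    unfold st
    rw [Real.smoothTransition.one_of_one_le (by linarith [mem_Ioi.1 hu]),
      Real.smoothTransition.one_of_one_le (by linarith)]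

theorem st_deriv_out {t : ℝ} (h : t ∉ Icc (1 : ℝ) 2) : deriv st t = 0 := by
  rw [(st_out h).deriv_eq]
  simp

theorem st_deriv2_out {t : ℝ} (h : t ∉ Icc (1 : ℝ) 2) : deriv (deriv st) t = 0 := by
  have hO : IsOpen (Icc (1 : ℝ) 2)ᶜ := isClosed_Icc.isOpen_compl
  have e : deriv st =ᶠ[𝓝 t] fun _ => 0 := by
    filter_upwards [hO.mem_nhds h] with u hu using st_deriv_out hu
  rw [e.deriv_eq]
  simp

theorem st_dsmooth : ContDiff ℝ ((⊤ : ℕ∞) : WithTop ℕ∞) (deriv st) :=
  (contDiff_infty_iff_deriv.1 st_smooth).2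

theorem st_bounds : ∃ A : ℝ, 0 ≤ A ∧ (∀ t, |deriv st t| ≤ A) ∧ ∀ t, |deriv (deriv st) t| ≤ A := by
  obtain ⟨A1, h1⟩ := (isCompact_Icc (a := (1 : ℝ)) (b := 2)).exists_bound_of_continuousOn
    (st_smooth.continuous_deriv (by simp)).continuousOn
  obtain ⟨A2, h2⟩ := (isCompact_Icc (a := (1 : ℝ)) (b := 2)).exists_bound_of_continuousOn
    (st_dsmooth.continuous_deriv (by simp)).continuousOn
  refine ⟨max (max A1 A2) 0, le_max_right _ _, fun t => ?_, fun t => ?_⟩
  · by_cases ht : t ∈ Icc (1 : ℝ) 2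
    · exact (h1 t ht).trans ((le_max_left _ _).trans (le_max_left _ _))
    · rw [st_deriv_out ht, abs_zero]; exact le_max_right _ _
  · by_cases ht : t ∈ Icc (1 : ℝ) 2
    · exact (h2 t ht).trans ((le_max_right _ _).trans (le_max_left _ _))
    · rw [st_deriv2_out ht, abs_zero]; exact le_max_right _ _

theorem fderiv_snd_comp {g : ℝ → ℝ} (hg : ContDiff ℝ ((⊤ : ℕ∞) : WithTop ℕ∞) g) (a : ℝ)
    (z v : ℝ × ℝ) : fderiv ℝ (fun z : ℝ × ℝ => g (z.2 / a)) z v = deriv g (z.2 / a) * (v.2 / a) := by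
  have h0 : HasDerivAt g (deriv g (z.2 / a)) (z.2 / a) :=
    ((hg.differentiable (by simp)) _).hasDerivAt
  have h1 : HasFDerivAt (fun z : ℝ × ℝ => z.2 / a) (a⁻¹ • ContinuousLinearMap.snd ℝ ℝ ℝ) z := by
    have h2 : HasFDerivAt (fun z : ℝ × ℝ => z.2) (ContinuousLinearMap.snd ℝ ℝ ℝ) z :=
      hasFDerivAt_snd
    have h3 := h2.const_mul a⁻¹
    refine h3.congr_of_eventuallyEq (Eventually.of_forall fun y => ?_)
    simp only; rw [div_eq_inv_mul]
  have h4 := h0.comp_hasFDerivAt z h1
  have h5 : HasFDerivAt (fun z : ℝ × ℝ => g (z.2 / a)) _ z := h4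
  rw [h5.fderiv]
  simp
  left
  ring

theorem th_eq (a : ℝ) : th a = fun z => st (z.2 / a) := rfl

/-- The Laplacian of `θ(y/a) ψ`. -/
theorem lap_th (a : ℝ) {ψ : ℝ × ℝ → ℝ} (hψ : Sm ψ) (z : ℝ × ℝ) :
    lap (fun z => th a z * ψ z) z = th a z * lap ψ z +
      (2 * (deriv st (z.2 / a) / a) * dy ψ z + deriv (deriv st) (z.2 / a) / a ^ 2 * ψ z) := by
  have h1 : ∀ z, dx (th a) z = 0 := fun z => by
    unfold dx
    rw [th_eq, fderiv_snd_comp st_smooth]
    simp
  have h2 : dy (th a) = fun z => deriv st (z.2 / a) * a⁻¹ := by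
    funext z
    unfold dy
    rw [th_eq, fderiv_snd_comp st_smooth]
    simp
  have hd : Sm fun z : ℝ × ℝ => deriv st (z.2 / a) :=
    st_dsmooth.comp (contDiff_snd.div_const _)
  have h3 : dy (dy (th a)) z = deriv (deriv st) (z.2 / a) / a ^ 2 := by
    rw [h2]
    have e : (fun z : ℝ × ℝ => deriv st (z.2 / a) * a⁻¹) =
        fun z : ℝ × ℝ => a⁻¹ * deriv st (z.2 / a) := by funext z; ring
    rw [e, dy_smul hd]
    unfold dy
    rw [fderiv_snd_comp st_dsmooth]
    simp
    ring
  have e1 : dx (fun z => th a z * ψ z) = fun z => th a z * dx ψ z := by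
    funext w
    rw [dx_mul (th_smooth a) hψ, h1]
    ring
  have e2 : dy (fun z => th a z * ψ z) = fun z => th a z * dy ψ z + dy (th a) z * ψ z := by
    funext w
    rw [dy_mul (th_smooth a) hψ]
  have s1 : Sm fun z => th a z * dy ψ z := (th_smooth a).mul hψ.dy
  have s2 : Sm fun z => dy (th a) z * ψ z := (th_smooth a).dy.mul hψ
  unfold lap
  rw [e1, dx_mul (th_smooth a) hψ.dx, h1, e2, dy_add s1 s2, dy_mul (th_smooth a) hψ.dy,
    dy_mul (th_smooth a).dy hψ, h3, h2]
  simp only
  ring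

/-- A bounded function on the upper half of a ball, weakly harmonic, with vertical limits `0`. -/
structure HalfFn (c s K : ℝ) (v : ℝ × ℝ → ℝ) : Prop where
  pos : 0 < s
  meas : Measurable v
  bd : ∀ z, |v z| ≤ K
  out : ∀ z, z ∉ hb c s → v z = 0
  cont : ContinuousOn v (hb c s)
  weak : ∀ ψ, TestOn (hb c s) ψ → ∫ z, v z * lap ψ z = 0
  lim : ∀ᵐ x : ℝ, Tendsto (fun y => v (x, y)) (𝓝[>] 0) (𝓝 0)

/-- The density `1/a` on the strip `a ≤ y ≤ 2a`. -/
noncomputable def qs (a y : ℝ) : ℝ := (Icc a (2 * a)).indicator (fun _ => a⁻¹) y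

theorem qs_nonneg {a : ℝ} (ha : 0 < a) (y : ℝ) : 0 ≤ qs a y :=
  indicator_nonneg (fun _ _ => (inv_pos.2 ha).le) y

theorem qs_int {a : ℝ} (ha : 0 < a) : ∫ y, qs a y = 1 := by
  unfold qs
  rw [integral_indicator measurableSet_Icc, setIntegral_const]
  simp only [Real.volume_real_Icc, smul_eq_mul]
  rw [max_eq_left (by linarith)]
  field_simp
  ring

theorem qs_integrable (a : ℝ) : Integrable (qs a) := by
  unfold qs
  rw [integrable_indicator_iff measurableSet_Icc]
  exact integrableOn_const (by simp) (by simp)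

theorem HalfFn.fst_out {c s K : ℝ} {v : ℝ × ℝ → ℝ} (h : HalfFn c s K v) {x : ℝ}
    (hx : x ∉ Ioo (c - s) (c + s)) (y : ℝ) : v (x, y) = 0 := by
  refine h.out _ fun hz => hx ?_
  have h1 : dist (x, y) ((c, 0) : ℝ × ℝ) < s := hz.1
  rw [Prod.dist_eq, max_lt_iff] at h1
  have h2 := h1.1
  simp only [Real.dist_eq] at h2
  rw [abs_lt] at h2
  exact ⟨by linarith [h2.1], by linarith [h2.2]⟩

theorem HalfFn.K0 {c s K : ℝ} {v : ℝ × ℝ → ℝ} (h : HalfFn c s K v) : 0 ≤ K :=
  (abs_nonneg _).trans (h.bd (0, 0))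

theorem HalfFn.integrable {c s K : ℝ} {v : ℝ × ℝ → ℝ} (h : HalfFn c s K v) : Integrable v := by
  have h1 : IntegrableOn (fun _ : ℝ × ℝ => K) (Metric.ball ((c, 0) : ℝ × ℝ) s) :=
    integrableOn_const (hs := (Metric.isBounded_ball.measure_lt_top).ne)
  have h2 : Integrable (indicator (Metric.ball ((c, 0) : ℝ × ℝ) s) fun _ => K) :=
    h1.integrable_indicator Metric.isOpen_ball.measurableSet
  refine h2.mono' h.meas.aestronglyMeasurable (ae_of_all _ fun z => ?_)
  by_cases hz : z ∈ Metric.ball ((c, 0) : ℝ × ℝ) s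
  · rw [indicator_of_mem hz]; exact h.bd z
  · rw [indicator_of_notMem hz, h.out z fun hz' => hz hz'.1]
    simp

theorem qs_meas (a : ℝ) : Measurable (qs a) := measurable_const.indicator measurableSet_Icc

theorem qs_le {a : ℝ} (ha : 0 < a) (y : ℝ) : qs a y ≤ a⁻¹ := by
  unfold qs
  by_cases h : y ∈ Icc a (2 * a)
  · rw [indicator_of_mem h]
  · rw [indicator_of_notMem h]; exact (inv_pos.2 ha).le

theorem HalfFn.int_q {c s K : ℝ} {v : ℝ × ℝ → ℝ} (h : HalfFn c s K v) {a : ℝ} (ha : 0 < a) :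
    Integrable fun z : ℝ × ℝ => |v z| * qs a z.2 := by
  refine h.integrable.abs.mul_bdd (c := a⁻¹)
    ((qs_meas a).comp measurable_snd).aestronglyMeasurable (ae_of_all _ fun z => ?_)
  rw [Real.norm_eq_abs, abs_of_nonneg (qs_nonneg ha _)]
  exact qs_le ha _

/-- The averages over the strips tend to zero. -/
theorem HalfFn.strip {c s K : ℝ} {v : ℝ × ℝ → ℝ} (h : HalfFn c s K v) {a : ℕ → ℝ}
    (ha : ∀ n, 0 < a n) (hlim : Tendsto a atTop (𝓝 0)) :
    Tendsto (fun n => ∫ z : ℝ × ℝ, |v z| * qs (a n) z.2) atTop (𝓝 0) := by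
  have e1 : ∀ n, ∫ z : ℝ × ℝ, |v z| * qs (a n) z.2 = ∫ x, ∫ y, |v (x, y)| * qs (a n) y :=
    fun n => integral_prod _ (h.int_q (ha n))
  simp_rw [e1]
  rw [show (0 : ℝ) = ∫ _ : ℝ, (0 : ℝ) by simp]
  have hK := h.K0
  refine tendsto_integral_of_dominated_convergence
    ((Ioo (c - s) (c + s)).indicator fun _ => K) (fun n => ?_) ?_ (fun n => ?_) ?_
  · exact (h.int_q (ha n)).integral_prod_left.aestronglyMeasurable
  · rw [integrable_indicator_iff measurableSet_Ioo]
    exact integrableOn_const (by simp) (by simp)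
  · refine ae_of_all _ fun x => ?_
    by_cases hx : x ∈ Ioo (c - s) (c + s)
    · rw [indicator_of_mem hx, Real.norm_eq_abs]
      refine (abs_integral_le_integral_abs).trans ?_
      calc ∫ y, |(|v (x, y)| * qs (a n) y)| ≤ ∫ y, K * qs (a n) y := by
            refine integral_mono_of_nonneg (ae_of_all _ fun y => abs_nonneg _)
              ((qs_integrable _).const_mul K) (ae_of_all _ fun y => ?_)
            simp only
            rw [abs_mul, abs_abs, abs_of_nonneg (qs_nonneg (ha n) y)]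
            exact mul_le_mul_of_nonneg_right (h.bd _) (qs_nonneg (ha n) y)
        _ = K := by rw [integral_const_mul, qs_int (ha n), mul_one]
    · rw [indicator_of_notMem hx]
      simp_rw [h.fst_out hx]
      simp
  · filter_upwards [h.lim] with x hx
    rw [Metric.tendsto_atTop]
    intro ε hε
    have h1 := (Metric.tendsto_nhds.1 hx) (ε / 2) (half_pos hε)
    rw [eventually_nhdsWithin_iff, Metric.eventually_nhds_iff] at h1
    obtain ⟨r, hr, h2⟩ := h1
    obtain ⟨N, hN⟩ := (Metric.tendsto_atTop.1 hlim) (r / 2) (by linarith)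
    refine ⟨N, fun n hn => ?_⟩
    have h3 := hN n hn
    rw [Real.dist_eq, sub_zero, abs_of_pos (ha n)] at h3
    rw [Real.dist_eq, sub_zero]
    refine lt_of_le_of_lt (abs_integral_le_integral_abs) ?_
    refine lt_of_le_of_lt (b := ε / 2) ?_ (by linarith)
    calc ∫ y, |(|v (x, y)| * qs (a n) y)| ≤ ∫ y, (ε / 2) * qs (a n) y := by
          refine integral_mono_of_nonneg (ae_of_all _ fun y => abs_nonneg _)
            ((qs_integrable _).const_mul (ε / 2)) (ae_of_all _ fun y => ?_)
          simp only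
          rw [abs_mul, abs_abs, abs_of_nonneg (qs_nonneg (ha n) y)]
          by_cases hy : y ∈ Icc (a n) (2 * a n)
          · refine mul_le_mul_of_nonneg_right ?_ (qs_nonneg (ha n) y)
            have hy0 : 0 < y := lt_of_lt_of_le (ha n) hy.1
            have h4 := h2 (y := y) (by
              rw [Real.dist_eq, sub_zero, abs_of_pos hy0]
              linarith [hy.2]) hy0
            rw [Real.dist_eq, sub_zero] at h4
            exact h4.le
          · unfold qs
            rw [indicator_of_notMem hy]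
            simp
      _ = ε / 2 := by rw [integral_const_mul, qs_int (ha n), mul_one]

theorem odd_bound {D : Set (ℝ × ℝ)} {ψ : ℝ × ℝ → ℝ} (h : TestOn D ψ) :
    ∃ L : ℝ, 0 ≤ L ∧ ∀ z, |ψ z - ψ (cj z)| ≤ L * |z.2| := by
  obtain ⟨C, hC⟩ := ContDiff.lipschitzWith_of_hasCompactSupport h.cs h.sm (by simp)
  refine ⟨2 * C, by positivity, fun z => ?_⟩
  have h1 := hC.dist_le_mul z (cj z)
  rw [Real.dist_eq] at h1
  refine h1.trans (le_of_eq ?_)
  have h2 : dist z (cj z) = 2 * |z.2| := by
    rw [Prod.dist_eq]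
    simp only [cj_fst, cj_snd, dist_self, Real.dist_eq]
    rw [show z.2 - -z.2 = 2 * z.2 by ring, abs_mul, abs_of_pos (two_pos)]
    exact max_eq_right (by positivity)
  rw [h2]
  ring

theorem th_test {c s a : ℝ} (ha : 0 < a) {ρ : ℝ × ℝ → ℝ}
    (h : TestOn (Metric.ball ((c, 0) : ℝ × ℝ) s) ρ) : TestOn (hb c s) fun z => th a z * ρ z := by
  refine ⟨(th_smooth a).mul h.sm, h.cs.mul_left, subset_inter ?_ ?_⟩
  · exact (tsupport_mul_subset_right).trans h.2.2
  · have h1 : tsupport (fun z => th a z * ρ z) ⊆ {z | a ≤ z.2} := by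
      refine closure_minimal (fun z hz => ?_) (isClosed_le continuous_const continuous_snd)
      by_contra h2
      rw [mem_ofPred_eq, not_le] at h2
      refine hz ?_
      simp only
      rw [th_zero ha h2.le, zero_mul]
    exact fun z hz => lt_of_lt_of_le ha (h1 hz)

/-- The function is weakly harmonic across the diameter, for odd test functions. -/
theorem HalfFn.odd {c s K : ℝ} {v : ℝ × ℝ → ℝ} (h : HalfFn c s K v) {ψ : ℝ × ℝ → ℝ}
    (hψ : TestOn (Metric.ball ((c, 0) : ℝ × ℝ) s) ψ) :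
    ∫ z, v z * lap (fun z => ψ z - ψ (cj z)) z = 0 := by
  set ρ : ℝ × ℝ → ℝ := fun z => ψ z - ψ (cj z) with hρd
  have hρ : TestOn (Metric.ball ((c, 0) : ℝ × ℝ) s) ρ := hψ.sub (testOn_cj hψ)
  obtain ⟨L, hL0, hL⟩ := odd_bound hψ
  obtain ⟨A, hA0, hA1, hA2⟩ := st_bounds
  obtain ⟨M, hM⟩ := hρ.dy.cs.exists_bound_of_continuous hρ.dy.cont
  have hM0 : 0 ≤ M := (norm_nonneg _).trans (hM (0, 0))
  set R : ℝ → ℝ × ℝ → ℝ := fun a z => 2 * (deriv st (z.2 / a) / a) * dy ρ z +
    deriv (deriv st) (z.2 / a) / a ^ 2 * ρ z with hR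
  have hRb : ∀ a : ℝ, 0 < a → ∀ z, |R a z| ≤ (2 * A * M + 2 * A * L) * qs a z.2 := by
    intro a ha z
    by_cases hz : z.2 ∈ Icc a (2 * a)
    · have e : qs a z.2 = a⁻¹ := by unfold qs; rw [indicator_of_mem hz]
      have hz0 : 0 ≤ z.2 := ha.le.trans hz.1
      rw [e, hR]
      refine (abs_add_le _ _).trans ?_
      have g1 : |2 * (deriv st (z.2 / a) / a) * dy ρ z| ≤ 2 * A * M * a⁻¹ := by
        rw [abs_mul, abs_mul, abs_div, abs_of_pos ha, abs_two]
        have h1 := hA1 (z.2 / a)
        have h2 : |dy ρ z| ≤ M := hM z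
        calc 2 * (|deriv st (z.2 / a)| / a) * |dy ρ z| ≤ 2 * (A / a) * M := by gcongr
          _ = 2 * A * M * a⁻¹ := by ring
      have g2 : |deriv (deriv st) (z.2 / a) / a ^ 2 * ρ z| ≤ 2 * A * L * a⁻¹ := by
        rw [abs_mul, abs_div, abs_of_pos (show 0 < a ^ 2 by positivity)]
        have h1 := hA2 (z.2 / a)
        have h2 : |ρ z| ≤ L * (2 * a) := (hL z).trans (by
          rw [abs_of_nonneg hz0]
          exact mul_le_mul_of_nonneg_left hz.2 hL0)
        calc |deriv (deriv st) (z.2 / a)| / a ^ 2 * |ρ z| ≤ A / a ^ 2 * (L * (2 * a)) := by gcongr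
          _ = 2 * A * L * a⁻¹ := by field_simp
      linarith
    · have e : qs a z.2 = 0 := by unfold qs; rw [indicator_of_notMem hz]
      have hz' : z.2 / a ∉ Icc (1 : ℝ) 2 := by
        intro h1
        refine hz ⟨?_, ?_⟩
        · have := h1.1
          rwa [le_div_iff₀ ha, one_mul] at this
        · have := h1.2
          rwa [div_le_iff₀ ha] at this
      rw [e, hR]
      simp only
      rw [st_deriv_out hz', st_deriv2_out hz']
      simp
  have hRc : ∀ a : ℝ, Continuous (R a) := by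
    intro a
    have c1 : Continuous fun z : ℝ × ℝ => deriv st (z.2 / a) :=
      st_dsmooth.continuous.comp (continuous_snd.div_const _)
    have c2 : Continuous fun z : ℝ × ℝ => deriv (deriv st) (z.2 / a) :=
      (st_dsmooth.continuous_deriv (by simp)).comp (continuous_snd.div_const _)
    exact ((continuous_const.mul (c1.div_const _)).mul hρ.dy.cont).add
      ((c2.div_const _).mul hρ.cont)
  have hvR : ∀ a : ℝ, 0 < a → Integrable fun z => v z * R a z := by
    intro a ha
    refine ((h.int_q ha).const_mul (2 * A * M + 2 * A * L)).mono'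
      (h.meas.aestronglyMeasurable.mul (hRc a).aestronglyMeasurable) (ae_of_all _ fun z => ?_)
    rw [Real.norm_eq_abs, abs_mul]
    have := mul_le_mul_of_nonneg_left (hRb a ha z) (abs_nonneg (v z))
    linarith
  obtain ⟨M2, hM2⟩ := hρ.lap.cs.exists_bound_of_continuous hρ.lap.cont
  have hM20 : 0 ≤ M2 := (norm_nonneg _).trans (hM2 (0, 0))
  have hvL : ∀ a : ℝ, Integrable fun z => v z * (th a z * lap ρ z) := by
    intro a
    refine h.integrable.mul_bdd (c := M2)
      ((th_smooth a).continuous.mul hρ.lap.cont).aestronglyMeasurable (ae_of_all _ fun z => ?_)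
    rw [Real.norm_eq_abs, abs_mul, abs_of_nonneg (th_nonneg a z)]
    have h1 : |lap ρ z| ≤ M2 := hM2 z
    have h2 := th_le_one a z
    have h3 := th_nonneg a z
    calc th a z * |lap ρ z| ≤ 1 * M2 := mul_le_mul h2 h1 (abs_nonneg _) zero_le_one
      _ = M2 := one_mul _
  have hsum : ∀ a : ℝ, 0 < a → (∫ z, v z * (th a z * lap ρ z)) + ∫ z, v z * R a z = 0 := by
    intro a ha
    rw [← integral_add (hvL a) (hvR a ha), ← h.weak _ (th_test ha hρ)]
    congr 1
    funext z
    rw [lap_th a hρ.sm]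
    ring
  -- the sequence
  set a : ℕ → ℝ := fun n => 1 / ((n : ℝ) + 1) with had
  have ha : ∀ n, 0 < a n := fun n => by positivity
  have hlim : Tendsto a atTop (𝓝 0) := tendsto_one_div_add_atTop_nhds_zero_nat
  have t1 : Tendsto (fun n => ∫ z, v z * R (a n) z) atTop (𝓝 0) := by
    have h1 := (h.strip ha hlim).const_mul (2 * A * M + 2 * A * L)
    rw [mul_zero] at h1
    refine squeeze_zero_norm (fun n => ?_) h1
    rw [Real.norm_eq_abs, ← integral_const_mul]
    refine (abs_integral_le_integral_abs).trans (integral_mono_of_nonneg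
      (ae_of_all _ fun z => abs_nonneg _) ((h.int_q (ha n)).const_mul _) (ae_of_all _ fun z => ?_))
    simp only
    rw [abs_mul]
    have := mul_le_mul_of_nonneg_left (hRb (a n) (ha n) z) (abs_nonneg (v z))
    linarith
  have t2 : Tendsto (fun n => ∫ z, v z * (th (a n) z * lap ρ z)) atTop
      (𝓝 (∫ z, v z * lap ρ z)) := by
    refine tendsto_integral_of_dominated_convergence (fun z => |v z| * M2) (fun n => ?_)
      (h.integrable.abs.mul_const _) (fun n => ae_of_all _ fun z => ?_) (ae_of_all _ fun z => ?_)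
    · exact (hvL (a n)).aestronglyMeasurable
    · rw [Real.norm_eq_abs, abs_mul, abs_mul, abs_of_nonneg (th_nonneg _ z)]
      refine mul_le_mul_of_nonneg_left ?_ (abs_nonneg _)
      have h1 : |lap ρ z| ≤ M2 := hM2 z
      calc th (a n) z * |lap ρ z| ≤ 1 * M2 := mul_le_mul (th_le_one _ z) h1 (abs_nonneg _)
            zero_le_one
        _ = M2 := one_mul _
    · by_cases hz : 0 < z.2
      · refine tendsto_const_nhds.congr' ?_
        have h1 := (Metric.tendsto_atTop.1 hlim) (z.2 / 2) (by linarith)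
        obtain ⟨N, hN⟩ := h1
        filter_upwards [eventually_ge_atTop N] with n hn
        have h3 := hN n hn
        rw [Real.dist_eq, sub_zero, abs_of_pos (ha n)] at h3
        rw [th_one (ha n) (by linarith), one_mul]
      · have : v z = 0 := h.out z fun hz' => hz hz'.2
        rw [this]
        simp
  have t3 := t2.add t1
  rw [add_zero] at t3
  refine tendsto_nhds_unique t3 ?_
  refine tendsto_const_nhds.congr fun n => ?_
  exact (hsum (a n) (ha n)).symm

/-- The odd extension. -/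
theorem HalfFn.ext_weak {c s K : ℝ} {v : ℝ × ℝ → ℝ} (h : HalfFn c s K v) {ψ : ℝ × ℝ → ℝ}
    (hψ : TestOn (Metric.ball ((c, 0) : ℝ × ℝ) s) ψ) :
    ∫ z, (v z - v (cj z)) * lap ψ z = 0 := by
  have hv := h.integrable
  have hvc : Integrable fun z => v (cj z) := (cj_mp.integrable_comp_emb cj_me).2 hv
  obtain ⟨M, hM⟩ := hψ.lap.cs.exists_bound_of_continuous hψ.lap.cont
  have i1 : Integrable fun z => v z * lap ψ z :=
    hv.mul_bdd hψ.lap.cont.aestronglyMeasurable (ae_of_all _ hM)
  have i2 : Integrable fun z => v (cj z) * lap ψ z :=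
    hvc.mul_bdd hψ.lap.cont.aestronglyMeasurable (ae_of_all _ hM)
  have i3 : Integrable fun z => v z * lap ψ (cj z) :=
    hv.mul_bdd (hψ.lap.cont.comp cj_cont).aestronglyMeasurable (ae_of_all _ fun z => hM _)
  have e1 : ∫ z, v (cj z) * lap ψ z = ∫ z, v z * lap ψ (cj z) := by
    rw [← integral_cj fun z => v z * lap ψ (cj z)]
    simp only [cj_cj]
  have h1 := h.odd hψ
  have e2 : ∀ z, lap (fun z => ψ z - ψ (cj z)) z = lap ψ z - lap ψ (cj z) := by
    intro z
    have hn : Sm fun z => ψ (cj z) := (testOn_cj hψ).sm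
    have : (fun z => ψ z - ψ (cj z)) = fun z => ψ z + (-1) * ψ (cj z) := by funext w; ring
    rw [this, lap_add hψ.sm (contDiff_const.mul hn), lap_smul hn, lap_cj hψ.sm]
    ring
  simp_rw [e2] at h1
  have e3 : ∀ z, v z * (lap ψ z - lap ψ (cj z)) = v z * lap ψ z - v z * lap ψ (cj z) :=
    fun z => by ring
  simp_rw [e3] at h1
  rw [integral_sub i1 i3] at h1
  have e4 : ∀ z, (v z - v (cj z)) * lap ψ z = v z * lap ψ z - v (cj z) * lap ψ z :=
    fun z => by ring
  simp_rw [e4]
  rw [integral_sub i1 i2, e1, h1]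

/-- Reflection principle: the function is small near the centre of the diameter. -/
theorem HalfFn.small {c s K : ℝ} {v : ℝ × ℝ → ℝ} (h : HalfFn c s K v) {ε : ℝ} (hε : 0 < ε) :
    ∃ r : ℝ, 0 < r ∧ ∀ z : ℝ × ℝ, dist z (c, 0) < r → 0 < z.2 → |v z| < ε := by
  have hs := h.pos
  set w : ℝ × ℝ → ℝ := fun z => v z - v (cj z) with hw
  have hv := h.integrable
  have hvc : Integrable fun z => v (cj z) := (cj_mp.integrable_comp_emb cj_me).2 hv
  have hwi : Integrable w := hv.sub hvc
  have hweak : ∀ ψ, TestOn (Metric.ball ((c, 0) : ℝ × ℝ) s) ψ →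
      ∫ z, w z * lap ψ z = - ∫ z, ψ z * (fun _ => (0 : ℝ)) z := fun ψ hψ => by
    rw [h.ext_weak hψ]; simp
  set t : ℝ := s / 4 with ht
  have ht0 : 0 < t := by positivity
  have hc : Continuous (US w t) := (US_smooth hwi ht0).continuous
  have h0 : US w t (c, 0) = 0 := by
    rw [US_eq]
    have e1 := integral_cj fun z => w z * bump t (c, 0) z
    have e3 : ∫ z, w (cj z) * bump t (c, 0) (cj z) = - ∫ z, w z * bump t (c, 0) z := by
      rw [← integral_neg]
      congr 1
      funext z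
      have e2 : bump t (c, 0) (cj z) = bump t (c, 0) z := by
        unfold bump rs sqn
        simp
      simp only [hw, cj_cj]
      rw [e2]
      ring
    linarith
  obtain ⟨r, hr, hrc⟩ := (Metric.continuous_iff.1 hc) (c, 0) ε hε
  refine ⟨min r t, lt_min hr ht0, fun z hz hz2 => ?_⟩
  have hzb : dist z (c, 0) < t := lt_of_lt_of_le hz (min_le_right _ _)
  have hzin : z ∈ hb c s := ⟨by rw [Metric.mem_ball]; linarith, hz2⟩
  have key : v z = US w t z := by
    -- the mollifications are constant and converge to `v z`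
    have hcst : ∀ q : ℝ, 0 < q → q ≤ t → US w t z = US w q z := by
      intro q hq hqt
      rw [US_eq, US_eq]
      refine bump_const hwi hweak hq hqt (fun y hy => ?_) fun _ _ => rfl
      rw [Metric.mem_closedBall] at hy
      rw [Metric.mem_ball]
      have := dist_triangle y z (c, 0)
      linarith
    have hopen : IsOpen (hb c s) :=
      Metric.isOpen_ball.inter (isOpen_lt continuous_const continuous_snd)
    have hcv : ContinuousAt w z := by
      have h1 : ContinuousAt v z := h.cont.continuousAt (hopen.mem_nhds hzin)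
      have h2 : (fun y => v (cj y)) =ᶠ[𝓝 z] fun _ => 0 := by
        filter_upwards [(isOpen_lt continuous_const continuous_snd :
          IsOpen {y : ℝ × ℝ | 0 < y.2}).mem_nhds hz2] with y hy
        refine h.out _ fun hy' => ?_
        have h3 : 0 < (cj y).2 := hy'.2
        have h4 : 0 < y.2 := hy
        rw [cj_snd] at h3
        linarith
      exact h1.sub (continuousAt_const.congr h2.symm)
    have hwz : w z = v z := by
      have : v (cj z) = 0 := h.out _ fun hy' => by
        have h3 : 0 < (cj z).2 := hy'.2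
        rw [cj_snd] at h3
        linarith
      rw [hw]
      simp only
      rw [this, sub_zero]
    have hall : ∀ η : ℝ, 0 < η → |US w t z - v z| ≤ η := by
      intro η hη
      obtain ⟨q0, hq0, hq⟩ := (Metric.continuousAt_iff.1 hcv) η hη
      set q := min t (q0 / 2) with hqd
      have hqp : 0 < q := lt_min ht0 (by linarith)
      rw [hcst q hqp (min_le_left _ _), US_eq, ← hwz]
      have hbi : Integrable (bump q z) := (bump_test hqp (D := univ) (subset_univ _)).int
      obtain ⟨Mb, hMb⟩ := (bump_test hqp (D := univ) (subset_univ _) (x := z)).cs.exists_bound_of_continuous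
        (bump_smooth q z).continuous
      have i1 : Integrable fun y => w y * bump q z y :=
        hwi.mul_bdd (bump_smooth q z).continuous.aestronglyMeasurable (ae_of_all _ hMb)
      have e1 : (∫ y, w y * bump q z y) - w z = ∫ y, (w y - w z) * bump q z y := by
        have e0 : ∀ y, (w y - w z) * bump q z y = w y * bump q z y - w z * bump q z y :=
          fun y => by ring
        simp_rw [e0]
        rw [integral_sub i1 (hbi.const_mul _), integral_const_mul, bump_int hqp, mul_one]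
      rw [e1]
      refine (abs_integral_le_integral_abs).trans ?_
      have e2 : η = ∫ y, η * bump q z y := by
        rw [integral_const_mul, bump_int hqp, mul_one]
      rw [e2]
      refine integral_mono_of_nonneg (ae_of_all _ fun y => abs_nonneg _) (hbi.const_mul _)
        (ae_of_all _ fun y => ?_)
      simp only
      rw [abs_mul, abs_of_nonneg (bump_nonneg _ _ _)]
      by_cases hy : q < dist y z
      · rw [bump_zero hqp hy]; simp
      · refine mul_le_mul_of_nonneg_right ?_ (bump_nonneg _ _ _)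
        have := hq (lt_of_le_of_lt (not_lt.1 hy) (lt_of_le_of_lt (min_le_right _ _)
          (by linarith)))
        rw [Real.dist_eq] at this
        exact this.le
    have : |US w t z - v z| ≤ 0 := le_of_forall_pos_le_add fun η hη => by
      rw [zero_add]; exact hall η hη
    have := abs_nonpos_iff.1 this
    linarith
  rw [key]
  have := hrc z (lt_of_lt_of_le hz (min_le_left _ _))
  rw [h0, Real.dist_eq, sub_zero] at this
  exact this

end Vale.Agent.P145W85.P153.R2.KAPV
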